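import Vale.Agent.P147.ZeroOne

open MeasureTheory Filter

namespace Vale.Agent.Results.P147.OneFreeAxis

open Vale.Agent.P147

/-- The directional zero-one law in every dimension `d ≥ 2`, for every direction, for iid
elliptic environments in which one axis is free and the other steps have fixed ratios. -/
theorem result : ∀ (d : ℕ), 2 ≤ d → ∀ (j : Fin d) (μ : Measure (Step d → ℝ)),
    IsProbabilityMeasure μ →
    (∀ᵐ p ∂μ, (∀ e, 0 < p e) ∧ ∑ e, p e = 1) →
    (∃ q : Step d → ℝ, ∀ᵐ p ∂μ, ∀ e : Step d, e.1 ≠ j →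
      p e = q e * (1 - p (j, true) - p (j, false))) →
    ∀ ℓ : Fin d → ℝ,
    (∀ᵐ ω ∂Measure.infinitePi (fun _ : Site d => μ),
      ∀ x, ∃ Q : Measure (Path d), IsProbabilityMeasure Q ∧ IsQuenchedLaw ω x Q) ∧
    ∃ c : ENNReal, (c = 0 ∨ c = 1) ∧
      (∀ᵐ ω ∂Measure.infinitePi (fun _ : Site d => μ),
        ∀ (x : Site d) (Q : Measure (Path d)), IsQuenchedLaw ω x Q → Q (escape ℓ) = c) ∧
      ∀ P : Env d → Measure (Path d),
        (∀ᵐ ω ∂Measure.infinitePi (fun _ : Site d => μ), IsQuenchedLaw ω 0 (P ω)) →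
        ∫⁻ ω, P ω (escape ℓ) ∂Measure.infinitePi (fun _ : Site d => μ) = c := by
  intro d hd j μ hμ hrow hq ℓ
  have : NeZero d := ⟨by omega⟩
  obtain ⟨q, hq⟩ := hq
  obtain ⟨c, hc, hall⟩ := zero_one_law hd j μ hrow q hq ℓ
  refine ⟨?_, c, hc, ?_, ?_⟩
  · filter_upwards [hall] with ω hω x
    exact ⟨law ω x, inferInstance, isQuenchedLaw_law hω.1 x⟩
  · filter_upwards [hall] with ω hω x Q hQ
    rw [eq_law hω.1 hQ]
    exact hω.2 x
  · intro P hP
    rw [lintegral_congr_ae (g := fun _ => c) (by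
      filter_upwards [hall, hP] with ω hω hPω
      rw [eq_law hω.1 hPω]
      exact hω.2 0)]
    simp

end Vale.Agent.Results.P147.OneFreeAxis
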