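import Vale.Agent.P147.Velocity.AtMostOne
import Vale.Agent.P147.Velocity.Dichotomy
import Vale.Agent.P147.Velocity.Rate

open MeasureTheory Filter
open scoped Topology

namespace Vale.Agent.Results.P147.RateZeroOne

open Vale.Agent.P147 Vale.Agent.P147.Velocity

/-- For iid uniformly elliptic walks: at most one nonzero velocity in every dimension at least
three, and in dimension at least four a nonzero velocity of positive chance has chance one and
forces the zero-one law in every direction; in dimension at least `3 p + 1` so does escape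
along one lattice direction at least like the `p`-th root of the time, with positive chance. -/
theorem result : ∀ d : ℕ, 3 ≤ d → ∀ μ : Measure (Step d → ℝ), IsProbabilityMeasure μ →
    (∀ᵐ p ∂μ, (∀ e, 0 < p e) ∧ ∑ e, p e = 1) →
    ∀ κ : ℝ, 0 < κ → (∀ᵐ p ∂μ, ∀ e, κ ≤ p e) →
    (∀ᵐ ω ∂Measure.infinitePi (fun _ : Site d => μ),
      ∀ x, ∃ Q : Measure (Path d), IsProbabilityMeasure Q ∧ IsQuenchedLaw ω x Q) ∧
    ∀ P : Env d → Measure (Path d),
      (∀ᵐ ω ∂Measure.infinitePi (fun _ : Site d => μ), IsQuenchedLaw ω 0 (P ω)) →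
      (∀ p : ℕ, 1 ≤ p → 3 * p + 1 ≤ d → ∀ a : Fin d → ℤ, (∀ i, |a i| ≤ 1) → a ≠ 0 →
        ∫⁻ ω, P ω {X | ∃ C : ℕ, ∀ᶠ t : ℕ in atTop,
          0 ≤ ∑ i, a i * X t i ∧ (t : ℤ) ≤ C * (∑ i, a i * X t i) ^ p}
          ∂Measure.infinitePi (fun _ : Site d => μ) ≠ 0 →
        ∫⁻ ω, P ω (escape fun i => (a i : ℝ)) ∂Measure.infinitePi (fun _ : Site d => μ) = 1 ∧
        ∀ ℓ : Fin d → ℝ, ∃ c : ENNReal, (c = 0 ∨ c = 1) ∧
          (∀ᵐ ω ∂Measure.infinitePi (fun _ : Site d => μ),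
            ∀ (x : Site d) (Q : Measure (Path d)), IsQuenchedLaw ω x Q → Q (escape ℓ) = c) ∧
          ∫⁻ ω, P ω (escape ℓ) ∂Measure.infinitePi (fun _ : Site d => μ) = c) ∧
      ∀ v : Fin d → ℝ, v ≠ 0 →
        ∫⁻ ω, P ω {X | ∀ i, Tendsto (fun t : ℕ => (X t i : ℝ) / t) atTop (𝓝 (v i))}
          ∂Measure.infinitePi (fun _ : Site d => μ) ≠ 0 →
        (∀ w : Fin d → ℝ, w ≠ 0 →
          ∫⁻ ω, P ω {X | ∀ i, Tendsto (fun t : ℕ => (X t i : ℝ) / t) atTop (𝓝 (w i))}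
            ∂Measure.infinitePi (fun _ : Site d => μ) ≠ 0 → v = w) ∧
        (4 ≤ d →
          ∫⁻ ω, P ω {X | ∀ i, Tendsto (fun t : ℕ => (X t i : ℝ) / t) atTop (𝓝 (v i))}
            ∂Measure.infinitePi (fun _ : Site d => μ) = 1 ∧
          ∀ ℓ : Fin d → ℝ, ∃ c : ENNReal, (c = 0 ∨ c = 1) ∧
            (0 < ∑ i, ℓ i * v i → c = 1) ∧ (∑ i, ℓ i * v i < 0 → c = 0) ∧
            (∀ᵐ ω ∂Measure.infinitePi (fun _ : Site d => μ),
              ∀ (x : Site d) (Q : Measure (Path d)), IsQuenchedLaw ω x Q → Q (escape ℓ) = c) ∧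
            ∫⁻ ω, P ω (escape ℓ) ∂Measure.infinitePi (fun _ : Site d => μ) = c) := by
  intro d hd μ hμ hrow κ hκ hell
  have : NeZero d := ⟨by omega⟩
  have hgood : ∀ᵐ ω ∂iidLaw μ, Good ω :=
    ae_forall_site μ (P := GoodRow) hrow
  refine ⟨hgood.mono fun ω hω x => ⟨law ω x, inferInstance, isQuenchedLaw_law hω x⟩, ?_⟩
  intro P hP
  have hann : ∀ s : Set (Path d), MeasurableSet s →
      ∫⁻ ω, P ω s ∂iidLaw μ = annealed μ s := by
    intro s hs
    rw [annealed_apply μ hs]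
    exact lintegral_congr_ae (by
      filter_upwards [hgood, hP] with ω hω hPω
      rw [eq_law hω hPω])
  refine ⟨fun p hp hdp a ha ha0 hPa => ?_, fun v hv hPv => ?_⟩
  · obtain ⟨h1, hall⟩ := root_escape_zero_one hp hdp hrow hκ hell ha (Function.ne_iff.1 ha0)
      fun h => hPa ((hann _ (measurableSet_rootEscape a p)).trans h)
    refine ⟨(hann _ (measurableSet_escape _)).trans h1, fun ℓ => ?_⟩
    obtain ⟨c, hc, he, hq⟩ := hall ℓ
    refine ⟨c, hc, ?_, (hann _ (measurableSet_escape ℓ)).trans he⟩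
    filter_upwards [hq] with ω hω x Q hQ
    rw [eq_law hω.1 hQ]
    exact hω.2 x
  have hv' : annealed μ (vel v) ≠ 0 := fun h => hPv ((hann _ (measurableSet_vel v)).trans h)
  refine ⟨fun w hw hPw => at_most_one_velocity hd hrow hκ hell hv hw hv'
    fun h => hPw ((hann _ (measurableSet_vel w)).trans h), fun hd4 => ?_⟩
  obtain ⟨h1, hall⟩ := ballistic_zero_one hrow hκ hell hv hv'
    fun a ha hva => escape_tail hd4 hrow hκ hell ha hva hv'
  refine ⟨(hann _ (measurableSet_vel v)).trans h1, fun ℓ => ?_⟩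
  obtain ⟨c, hc, hpos, hneg, he, hq⟩ := hall ℓ
  refine ⟨c, hc, hpos, hneg, ?_, (hann _ (measurableSet_escape ℓ)).trans he⟩
  filter_upwards [hq] with ω hω x Q hQ
  rw [eq_law hω.1 hQ]
  exact hω.2 x

end Vale.Agent.Results.P147.RateZeroOne
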