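import Vale.Agent.P147.Transient

open MeasureTheory Filter
open scoped RealInnerProductSpace

namespace Vale.Agent.Results.P147.TransientProjection

open Vale.Agent.P147

/-- The directional zero-one law in every direction for iid elliptic environments whose local
drift is killed by a linear projection under which the one-step covariance has anisotropy
`γ > 2`, i.e. for every uniformly elliptic law with a uniformly transient driftless projection:
the drift in the kernel of the projection is arbitrary. -/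
theorem result : ∀ (d m : ℕ) (a : Fin d → EuclideanSpace ℝ (Fin m)) (γ κ : ℝ),
    2 < γ → 0 < κ → a ≠ 0 →
    ∀ μ : Measure (Step d → ℝ), IsProbabilityMeasure μ →
    (∀ᵐ p ∂μ, (∀ e, 0 < p e) ∧ ∑ e, p e = 1) →
    (∀ᵐ p ∂μ, ∀ e, κ ≤ p e) →
    (∀ᵐ p ∂μ, ∑ e : Step d, p e • (∑ i, (move e i : ℝ) • a i) = 0) →
    (∀ᵐ p ∂μ, ∀ u : EuclideanSpace ℝ (Fin m),
      γ * ∑ e : Step d, p e * ⟪u, ∑ i, (move e i : ℝ) • a i⟫ ^ 2 ≤
        ‖u‖ ^ 2 * ∑ e : Step d, p e * ‖∑ i, (move e i : ℝ) • a i‖ ^ 2) →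
    ∀ ℓ : Fin d → ℝ,
    (∀ᵐ ω ∂Measure.infinitePi (fun _ : Site d => μ),
      ∀ x, ∃ Q : Measure (Path d), IsProbabilityMeasure Q ∧ IsQuenchedLaw ω x Q) ∧
    ∃ c : ENNReal, (c = 0 ∨ c = 1) ∧
      (∀ᵐ ω ∂Measure.infinitePi (fun _ : Site d => μ),
        ∀ (x : Site d) (Q : Measure (Path d)), IsQuenchedLaw ω x Q → Q (escape ℓ) = c) ∧
      ∀ P : Env d → Measure (Path d),
        (∀ᵐ ω ∂Measure.infinitePi (fun _ : Site d => μ), IsQuenchedLaw ω 0 (P ω)) →
        ∫⁻ ω, P ω (escape ℓ) ∂Measure.infinitePi (fun _ : Site d => μ) = c := by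
  intro d m a γ κ hγ hκ ha μ hμ hrow hell hmean haniso ℓ
  obtain ⟨j, hj⟩ := Function.ne_iff.mp ha
  have : NeZero d := ⟨(Fin.pos_iff_nonempty.mpr ⟨j⟩).ne'⟩
  have he₀ : emb a (move (j, true)) ≠ 0 := by
    simpa [emb, move, Pi.single_apply, ite_smul] using hj
  have hn : ∀ᵐ p ∂μ, Transient.NiceRow a γ κ p := by
    filter_upwards [hrow, hell, hmean, haniso] with p h1 h2 h3 h4
    exact ⟨h1, h2, h3, h4⟩
  have hz := Transient.zero_one_transient (μ := μ) hn hγ hκ he₀ ℓ
  obtain ⟨c, hc, hce⟩ : ∃ c : ENNReal, (c = 0 ∨ c = 1) ∧ annealed μ (escape ℓ) = c :=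
    ⟨_, hz, rfl⟩
  have hall := zero_one_projection_quenched μ hrow ℓ hc hce
  refine ⟨?_, c, hc, ?_, ?_⟩
  · filter_upwards [hall] with ω hω x
    exact ⟨law ω x, inferInstance, isQuenchedLaw_law hω.1 x⟩
  · filter_upwards [hall] with ω hω x Q hQ
    rw [eq_law hω.1 hQ]
    exact hω.2 x
  · intro P hP
    rw [lintegral_congr_ae (g := fun _ => c) (by
      filter_upwards [hall, hP] with ω hω hPω
      rw [eq_law hω.1 hPω]
      exact hω.2 0)]
    simp

end Vale.Agent.Results.P147.TransientProjection
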